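import Vale.Agent.P154.D2.K0.T00_r0000
import Vale.Agent.P154.D2.K0.T00_r0001
import Vale.Agent.P154.D2.K0.T00_r001
import Vale.Agent.P154.D2.K0.T00_r010
import Vale.Agent.P154.D2.K0.T00_r011
import Vale.Agent.P154.D2.K0.T00_r10000
import Vale.Agent.P154.D2.K0.T00_r100010
import Vale.Agent.P154.D2.K0.T00_r100011
import Vale.Agent.P154.D2.K0.T00_r1001
import Vale.Agent.P154.D2.K0.T00_r101000
import Vale.Agent.P154.D2.K0.T00_r1010010
import Vale.Agent.P154.D2.K0.T00_r1010011
import Vale.Agent.P154.D2.K0.T00_r101010
import Vale.Agent.P154.D2.K0.T00_r1010110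
import Vale.Agent.P154.D2.K0.T00_r1010111
import Vale.Agent.P154.D2.K0.T00_r1011000
import Vale.Agent.P154.D2.K0.T00_r10110010
import Vale.Agent.P154.D2.K0.T00_r10110011
import Vale.Agent.P154.D2.K0.T00_r1011010
import Vale.Agent.P154.D2.K0.T00_r10110110
import Vale.Agent.P154.D2.K0.T00_r10110111
import Vale.Agent.P154.D2.K0.T00_r10111000
import Vale.Agent.P154.D2.K0.T00_r10111001
import Vale.Agent.P154.D2.K0.T00_r10111010
import Vale.Agent.P154.D2.K0.T00_r10111011
import Vale.Agent.P154.D2.K0.T00_r101111000
import Vale.Agent.P154.D2.K0.T00_r101111001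
import Vale.Agent.P154.D2.K0.T00_r101111010
import Vale.Agent.P154.D2.K0.T00_r101111011
import Vale.Agent.P154.D2.K0.T00_r101111100
import Vale.Agent.P154.D2.K0.T00_r101111101
import Vale.Agent.P154.D2.K0.T00_r101111110
import Vale.Agent.P154.D2.K0.T00_r101111111
import Vale.Agent.P154.D2.K0.T00_r110
import Vale.Agent.P154.D2.K0.T00_r11100
import Vale.Agent.P154.D2.K0.T00_r11101000
import Vale.Agent.P154.D2.K0.T00_r11101001
import Vale.Agent.P154.D2.K0.T00_r1110101000
import Vale.Agent.P154.D2.K0.T00_r1110101001
import Vale.Agent.P154.D2.K0.T00_r1110101010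
import Vale.Agent.P154.D2.K0.T00_r1110101011
import Vale.Agent.P154.D2.K0.T00_r1110101100
import Vale.Agent.P154.D2.K0.T00_r1110101101
import Vale.Agent.P154.D2.K0.T00_r1110101110
import Vale.Agent.P154.D2.K0.T00_r11101011110
import Vale.Agent.P154.D2.K0.T00_r11101011111
import Vale.Agent.P154.D2.K0.T00_r1110110
import Vale.Agent.P154.D2.K0.T00_r1110111000
import Vale.Agent.P154.D2.K0.T00_r1110111001
import Vale.Agent.P154.D2.K0.T00_r11101110100
import Vale.Agent.P154.D2.K0.T00_r111011101010
import Vale.Agent.P154.D2.K0.T00_r111011101011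
import Vale.Agent.P154.D2.K0.T00_r11101110110
import Vale.Agent.P154.D2.K0.T00_r11101110111
import Vale.Agent.P154.D2.K0.T00_r111011110
import Vale.Agent.P154.D2.K0.T00_r11101111100
import Vale.Agent.P154.D2.K0.T00_r111011111010
import Vale.Agent.P154.D2.K0.T00_r111011111011
import Vale.Agent.P154.D2.K0.T00_r11101111110
import Vale.Agent.P154.D2.K0.T00_r111011111110
import Vale.Agent.P154.D2.K0.T00_r111011111111
import Vale.Agent.P154.D2.K0.T00_r11110
import Vale.Agent.P154.D2.K0.T00_r1111100
import Vale.Agent.P154.D2.K0.T00_r111110100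
import Vale.Agent.P154.D2.K0.T00_r11111010100
import Vale.Agent.P154.D2.K0.T00_r111110101010
import Vale.Agent.P154.D2.K0.T00_r111110101011
import Vale.Agent.P154.D2.K0.T00_r11111010110
import Vale.Agent.P154.D2.K0.T00_r111110101110
import Vale.Agent.P154.D2.K0.T00_r111110101111
import Vale.Agent.P154.D2.K0.T00_r111110110
import Vale.Agent.P154.D2.K0.T00_r11111011100
import Vale.Agent.P154.D2.K0.T00_r111110111010
import Vale.Agent.P154.D2.K0.T00_r111110111011
import Vale.Agent.P154.D2.K0.T00_r11111011110
import Vale.Agent.P154.D2.K0.T00_r111110111110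
import Vale.Agent.P154.D2.K0.T00_r111110111111
import Vale.Agent.P154.D2.K0.T00_r1111110
import Vale.Agent.P154.D2.K0.T00_r111111100
import Vale.Agent.P154.D2.K0.T00_r11111110100
import Vale.Agent.P154.D2.K0.T00_r111111101010
import Vale.Agent.P154.D2.K0.T00_r111111101011
import Vale.Agent.P154.D2.K0.T00_r1111111011
import Vale.Agent.P154.D2.K0.T00_r111111110
import Vale.Agent.P154.D2.K0.T00_r1111111110
import Vale.Agent.P154.D2.K0.T00_r1111111111
import Vale.Agent.P154.D2.K0.T01_r000
import Vale.Agent.P154.D2.K0.T01_r001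
import Vale.Agent.P154.D2.K0.T01_r01
import Vale.Agent.P154.D2.K0.T01_r100
import Vale.Agent.P154.D2.K0.T01_r101
import Vale.Agent.P154.D2.K0.T01_r110
import Vale.Agent.P154.D2.K0.T01_r1110
import Vale.Agent.P154.D2.K0.T01_r1111
import Vale.Agent.P154.D2.K0.T10_r0000
import Vale.Agent.P154.D2.K0.T10_r0001
import Vale.Agent.P154.D2.K0.T10_r001
import Vale.Agent.P154.D2.K0.T10_r010
import Vale.Agent.P154.D2.K0.T10_r011
import Vale.Agent.P154.D2.K0.T10_r100
import Vale.Agent.P154.D2.K0.T10_r101
import Vale.Agent.P154.D2.K0.T10_r11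
import Vale.Agent.P154.D2.K0.T11_r000
import Vale.Agent.P154.D2.K0.T11_r001
import Vale.Agent.P154.D2.K0.T11_r01
import Vale.Agent.P154.D2.K0.T11_r1

namespace Vale.Agent.P154.D2.K0

open Cert

theorem s00_r000 : Sound P00 0 4096 0 32768 :=
  sound_splitA P00 0 2048 4096 0 32768 rfl s00_r0000 s00_r0001

theorem s00_r00 : Sound P00 0 8192 0 32768 :=
  sound_splitA P00 0 4096 8192 0 32768 rfl s00_r000 s00_r001

theorem s00_r01 : Sound P00 16384 8192 0 32768 :=
  sound_splitA P00 16384 4096 8192 0 32768 rfl s00_r010 s00_r011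

theorem s00_r0 : Sound P00 0 16384 0 32768 :=
  sound_splitA P00 0 8192 16384 0 32768 rfl s00_r00 s00_r01

theorem s00_r10001 : Sound P00 32768 4096 16384 8192 :=
  sound_splitA P00 32768 2048 4096 16384 8192 rfl s00_r100010 s00_r100011

theorem s00_r1000 : Sound P00 32768 4096 0 16384 :=
  sound_splitB P00 32768 4096 0 8192 16384 rfl s00_r10000 s00_r10001

theorem s00_r100 : Sound P00 32768 8192 0 16384 :=
  sound_splitA P00 32768 4096 8192 0 16384 rfl s00_r1000 s00_r1001

theorem s00_r101001 : Sound P00 36864 2048 32768 8192 :=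
  sound_splitB P00 36864 2048 32768 4096 8192 rfl s00_r1010010 s00_r1010011

theorem s00_r10100 : Sound P00 32768 4096 32768 8192 :=
  sound_splitA P00 32768 2048 4096 32768 8192 rfl s00_r101000 s00_r101001

theorem s00_r101011 : Sound P00 36864 2048 49152 8192 :=
  sound_splitB P00 36864 2048 49152 4096 8192 rfl s00_r1010110 s00_r1010111

theorem s00_r10101 : Sound P00 32768 4096 49152 8192 :=
  sound_splitA P00 32768 2048 4096 49152 8192 rfl s00_r101010 s00_r101011

theorem s00_r1010 : Sound P00 32768 4096 32768 16384 :=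
  sound_splitB P00 32768 4096 32768 8192 16384 rfl s00_r10100 s00_r10101

theorem s00_r1011001 : Sound P00 40960 2048 40960 4096 :=
  sound_splitA P00 40960 1024 2048 40960 4096 rfl s00_r10110010 s00_r10110011

theorem s00_r101100 : Sound P00 40960 2048 32768 8192 :=
  sound_splitB P00 40960 2048 32768 4096 8192 rfl s00_r1011000 s00_r1011001

theorem s00_r1011011 : Sound P00 45056 2048 40960 4096 :=
  sound_splitA P00 45056 1024 2048 40960 4096 rfl s00_r10110110 s00_r10110111

theorem s00_r101101 : Sound P00 45056 2048 32768 8192 :=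
  sound_splitB P00 45056 2048 32768 4096 8192 rfl s00_r1011010 s00_r1011011

theorem s00_r10110 : Sound P00 40960 4096 32768 8192 :=
  sound_splitA P00 40960 2048 4096 32768 8192 rfl s00_r101100 s00_r101101

theorem s00_r1011100 : Sound P00 40960 2048 49152 4096 :=
  sound_splitA P00 40960 1024 2048 49152 4096 rfl s00_r10111000 s00_r10111001

theorem s00_r1011101 : Sound P00 40960 2048 57344 4096 :=
  sound_splitA P00 40960 1024 2048 57344 4096 rfl s00_r10111010 s00_r10111011

theorem s00_r101110 : Sound P00 40960 2048 49152 8192 :=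
  sound_splitB P00 40960 2048 49152 4096 8192 rfl s00_r1011100 s00_r1011101

theorem s00_r10111100 : Sound P00 45056 1024 49152 4096 :=
  sound_splitB P00 45056 1024 49152 2048 4096 rfl s00_r101111000 s00_r101111001

theorem s00_r10111101 : Sound P00 47104 1024 49152 4096 :=
  sound_splitB P00 47104 1024 49152 2048 4096 rfl s00_r101111010 s00_r101111011

theorem s00_r1011110 : Sound P00 45056 2048 49152 4096 :=
  sound_splitA P00 45056 1024 2048 49152 4096 rfl s00_r10111100 s00_r10111101

theorem s00_r10111110 : Sound P00 45056 1024 57344 4096 :=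
  sound_splitB P00 45056 1024 57344 2048 4096 rfl s00_r101111100 s00_r101111101

theorem s00_r10111111 : Sound P00 47104 1024 57344 4096 :=
  sound_splitB P00 47104 1024 57344 2048 4096 rfl s00_r101111110 s00_r101111111

theorem s00_r1011111 : Sound P00 45056 2048 57344 4096 :=
  sound_splitA P00 45056 1024 2048 57344 4096 rfl s00_r10111110 s00_r10111111

theorem s00_r101111 : Sound P00 45056 2048 49152 8192 :=
  sound_splitB P00 45056 2048 49152 4096 8192 rfl s00_r1011110 s00_r1011111

theorem s00_r10111 : Sound P00 40960 4096 49152 8192 :=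
  sound_splitA P00 40960 2048 4096 49152 8192 rfl s00_r101110 s00_r101111

theorem s00_r1011 : Sound P00 40960 4096 32768 16384 :=
  sound_splitB P00 40960 4096 32768 8192 16384 rfl s00_r10110 s00_r10111

theorem s00_r101 : Sound P00 32768 8192 32768 16384 :=
  sound_splitA P00 32768 4096 8192 32768 16384 rfl s00_r1010 s00_r1011

theorem s00_r10 : Sound P00 32768 8192 0 32768 :=
  sound_splitB P00 32768 8192 0 16384 32768 rfl s00_r100 s00_r101

theorem s00_r1110100 : Sound P00 49152 2048 49152 4096 :=
  sound_splitA P00 49152 1024 2048 49152 4096 rfl s00_r11101000 s00_r11101001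

theorem s00_r111010100 : Sound P00 49152 1024 57344 2048 :=
  sound_splitA P00 49152 512 1024 57344 2048 rfl s00_r1110101000 s00_r1110101001

theorem s00_r111010101 : Sound P00 49152 1024 61440 2048 :=
  sound_splitA P00 49152 512 1024 61440 2048 rfl s00_r1110101010 s00_r1110101011

theorem s00_r11101010 : Sound P00 49152 1024 57344 4096 :=
  sound_splitB P00 49152 1024 57344 2048 4096 rfl s00_r111010100 s00_r111010101

theorem s00_r111010110 : Sound P00 51200 1024 57344 2048 :=
  sound_splitA P00 51200 512 1024 57344 2048 rfl s00_r1110101100 s00_r1110101101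

theorem s00_r1110101111 : Sound P00 52224 512 61440 2048 :=
  sound_splitB P00 52224 512 61440 1024 2048 rfl s00_r11101011110 s00_r11101011111

theorem s00_r111010111 : Sound P00 51200 1024 61440 2048 :=
  sound_splitA P00 51200 512 1024 61440 2048 rfl s00_r1110101110 s00_r1110101111

theorem s00_r11101011 : Sound P00 51200 1024 57344 4096 :=
  sound_splitB P00 51200 1024 57344 2048 4096 rfl s00_r111010110 s00_r111010111

theorem s00_r1110101 : Sound P00 49152 2048 57344 4096 :=
  sound_splitA P00 49152 1024 2048 57344 4096 rfl s00_r11101010 s00_r11101011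

theorem s00_r111010 : Sound P00 49152 2048 49152 8192 :=
  sound_splitB P00 49152 2048 49152 4096 8192 rfl s00_r1110100 s00_r1110101

theorem s00_r111011100 : Sound P00 53248 1024 57344 2048 :=
  sound_splitA P00 53248 512 1024 57344 2048 rfl s00_r1110111000 s00_r1110111001

theorem s00_r11101110101 : Sound P00 53248 512 63488 1024 :=
  sound_splitA P00 53248 256 512 63488 1024 rfl s00_r111011101010 s00_r111011101011

theorem s00_r1110111010 : Sound P00 53248 512 61440 2048 :=
  sound_splitB P00 53248 512 61440 1024 2048 rfl s00_r11101110100 s00_r11101110101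

theorem s00_r1110111011 : Sound P00 54272 512 61440 2048 :=
  sound_splitB P00 54272 512 61440 1024 2048 rfl s00_r11101110110 s00_r11101110111

theorem s00_r111011101 : Sound P00 53248 1024 61440 2048 :=
  sound_splitA P00 53248 512 1024 61440 2048 rfl s00_r1110111010 s00_r1110111011

theorem s00_r11101110 : Sound P00 53248 1024 57344 4096 :=
  sound_splitB P00 53248 1024 57344 2048 4096 rfl s00_r111011100 s00_r111011101

theorem s00_r11101111101 : Sound P00 55296 512 63488 1024 :=
  sound_splitA P00 55296 256 512 63488 1024 rfl s00_r111011111010 s00_r111011111011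

theorem s00_r1110111110 : Sound P00 55296 512 61440 2048 :=
  sound_splitB P00 55296 512 61440 1024 2048 rfl s00_r11101111100 s00_r11101111101

theorem s00_r11101111111 : Sound P00 56320 512 63488 1024 :=
  sound_splitA P00 56320 256 512 63488 1024 rfl s00_r111011111110 s00_r111011111111

theorem s00_r1110111111 : Sound P00 56320 512 61440 2048 :=
  sound_splitB P00 56320 512 61440 1024 2048 rfl s00_r11101111110 s00_r11101111111

theorem s00_r111011111 : Sound P00 55296 1024 61440 2048 :=
  sound_splitA P00 55296 512 1024 61440 2048 rfl s00_r1110111110 s00_r1110111111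

theorem s00_r11101111 : Sound P00 55296 1024 57344 4096 :=
  sound_splitB P00 55296 1024 57344 2048 4096 rfl s00_r111011110 s00_r111011111

theorem s00_r1110111 : Sound P00 53248 2048 57344 4096 :=
  sound_splitA P00 53248 1024 2048 57344 4096 rfl s00_r11101110 s00_r11101111

theorem s00_r111011 : Sound P00 53248 2048 49152 8192 :=
  sound_splitB P00 53248 2048 49152 4096 8192 rfl s00_r1110110 s00_r1110111

theorem s00_r11101 : Sound P00 49152 4096 49152 8192 :=
  sound_splitA P00 49152 2048 4096 49152 8192 rfl s00_r111010 s00_r111011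

theorem s00_r1110 : Sound P00 49152 4096 32768 16384 :=
  sound_splitB P00 49152 4096 32768 8192 16384 rfl s00_r11100 s00_r11101

theorem s00_r11111010101 : Sound P00 57344 512 63488 1024 :=
  sound_splitA P00 57344 256 512 63488 1024 rfl s00_r111110101010 s00_r111110101011

theorem s00_r1111101010 : Sound P00 57344 512 61440 2048 :=
  sound_splitB P00 57344 512 61440 1024 2048 rfl s00_r11111010100 s00_r11111010101

theorem s00_r11111010111 : Sound P00 58368 512 63488 1024 :=
  sound_splitA P00 58368 256 512 63488 1024 rfl s00_r111110101110 s00_r111110101111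

theorem s00_r1111101011 : Sound P00 58368 512 61440 2048 :=
  sound_splitB P00 58368 512 61440 1024 2048 rfl s00_r11111010110 s00_r11111010111

theorem s00_r111110101 : Sound P00 57344 1024 61440 2048 :=
  sound_splitA P00 57344 512 1024 61440 2048 rfl s00_r1111101010 s00_r1111101011

theorem s00_r11111010 : Sound P00 57344 1024 57344 4096 :=
  sound_splitB P00 57344 1024 57344 2048 4096 rfl s00_r111110100 s00_r111110101

theorem s00_r11111011101 : Sound P00 59392 512 63488 1024 :=
  sound_splitA P00 59392 256 512 63488 1024 rfl s00_r111110111010 s00_r111110111011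

theorem s00_r1111101110 : Sound P00 59392 512 61440 2048 :=
  sound_splitB P00 59392 512 61440 1024 2048 rfl s00_r11111011100 s00_r11111011101

theorem s00_r11111011111 : Sound P00 60416 512 63488 1024 :=
  sound_splitA P00 60416 256 512 63488 1024 rfl s00_r111110111110 s00_r111110111111

theorem s00_r1111101111 : Sound P00 60416 512 61440 2048 :=
  sound_splitB P00 60416 512 61440 1024 2048 rfl s00_r11111011110 s00_r11111011111

theorem s00_r111110111 : Sound P00 59392 1024 61440 2048 :=
  sound_splitA P00 59392 512 1024 61440 2048 rfl s00_r1111101110 s00_r1111101111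

theorem s00_r11111011 : Sound P00 59392 1024 57344 4096 :=
  sound_splitB P00 59392 1024 57344 2048 4096 rfl s00_r111110110 s00_r111110111

theorem s00_r1111101 : Sound P00 57344 2048 57344 4096 :=
  sound_splitA P00 57344 1024 2048 57344 4096 rfl s00_r11111010 s00_r11111011

theorem s00_r111110 : Sound P00 57344 2048 49152 8192 :=
  sound_splitB P00 57344 2048 49152 4096 8192 rfl s00_r1111100 s00_r1111101

theorem s00_r11111110101 : Sound P00 61440 512 63488 1024 :=
  sound_splitA P00 61440 256 512 63488 1024 rfl s00_r111111101010 s00_r111111101011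

theorem s00_r1111111010 : Sound P00 61440 512 61440 2048 :=
  sound_splitB P00 61440 512 61440 1024 2048 rfl s00_r11111110100 s00_r11111110101

theorem s00_r111111101 : Sound P00 61440 1024 61440 2048 :=
  sound_splitA P00 61440 512 1024 61440 2048 rfl s00_r1111111010 s00_r1111111011

theorem s00_r11111110 : Sound P00 61440 1024 57344 4096 :=
  sound_splitB P00 61440 1024 57344 2048 4096 rfl s00_r111111100 s00_r111111101

theorem s00_r111111111 : Sound P00 63488 1024 61440 2048 :=
  sound_splitA P00 63488 512 1024 61440 2048 rfl s00_r1111111110 s00_r1111111111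

theorem s00_r11111111 : Sound P00 63488 1024 57344 4096 :=
  sound_splitB P00 63488 1024 57344 2048 4096 rfl s00_r111111110 s00_r111111111

theorem s00_r1111111 : Sound P00 61440 2048 57344 4096 :=
  sound_splitA P00 61440 1024 2048 57344 4096 rfl s00_r11111110 s00_r11111111

theorem s00_r111111 : Sound P00 61440 2048 49152 8192 :=
  sound_splitB P00 61440 2048 49152 4096 8192 rfl s00_r1111110 s00_r1111111

theorem s00_r11111 : Sound P00 57344 4096 49152 8192 :=
  sound_splitA P00 57344 2048 4096 49152 8192 rfl s00_r111110 s00_r111111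

theorem s00_r1111 : Sound P00 57344 4096 32768 16384 :=
  sound_splitB P00 57344 4096 32768 8192 16384 rfl s00_r11110 s00_r11111

theorem s00_r111 : Sound P00 49152 8192 32768 16384 :=
  sound_splitA P00 49152 4096 8192 32768 16384 rfl s00_r1110 s00_r1111

theorem s00_r11 : Sound P00 49152 8192 0 32768 :=
  sound_splitB P00 49152 8192 0 16384 32768 rfl s00_r110 s00_r111

theorem s00_r1 : Sound P00 32768 16384 0 32768 :=
  sound_splitA P00 32768 8192 16384 0 32768 rfl s00_r10 s00_r11

theorem s00_r : Sound P00 0 32768 0 32768 :=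
  sound_splitA P00 0 16384 32768 0 32768 rfl s00_r0 s00_r1

theorem s01_r00 : Sound P01 0 8192 0 32768 :=
  sound_splitA P01 0 4096 8192 0 32768 rfl s01_r000 s01_r001

theorem s01_r0 : Sound P01 0 16384 0 32768 :=
  sound_splitA P01 0 8192 16384 0 32768 rfl s01_r00 s01_r01

theorem s01_r10 : Sound P01 32768 8192 0 32768 :=
  sound_splitB P01 32768 8192 0 16384 32768 rfl s01_r100 s01_r101

theorem s01_r111 : Sound P01 49152 8192 32768 16384 :=
  sound_splitA P01 49152 4096 8192 32768 16384 rfl s01_r1110 s01_r1111

theorem s01_r11 : Sound P01 49152 8192 0 32768 :=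
  sound_splitB P01 49152 8192 0 16384 32768 rfl s01_r110 s01_r111

theorem s01_r1 : Sound P01 32768 16384 0 32768 :=
  sound_splitA P01 32768 8192 16384 0 32768 rfl s01_r10 s01_r11

theorem s01_r : Sound P01 0 32768 0 32768 :=
  sound_splitA P01 0 16384 32768 0 32768 rfl s01_r0 s01_r1

theorem s10_r000 : Sound P10 0 4096 0 32768 :=
  sound_splitA P10 0 2048 4096 0 32768 rfl s10_r0000 s10_r0001

theorem s10_r00 : Sound P10 0 8192 0 32768 :=
  sound_splitA P10 0 4096 8192 0 32768 rfl s10_r000 s10_r001

theorem s10_r01 : Sound P10 16384 8192 0 32768 :=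
  sound_splitA P10 16384 4096 8192 0 32768 rfl s10_r010 s10_r011

theorem s10_r0 : Sound P10 0 16384 0 32768 :=
  sound_splitA P10 0 8192 16384 0 32768 rfl s10_r00 s10_r01

theorem s10_r10 : Sound P10 32768 8192 0 32768 :=
  sound_splitB P10 32768 8192 0 16384 32768 rfl s10_r100 s10_r101

theorem s10_r1 : Sound P10 32768 16384 0 32768 :=
  sound_splitA P10 32768 8192 16384 0 32768 rfl s10_r10 s10_r11

theorem s10_r : Sound P10 0 32768 0 32768 :=
  sound_splitA P10 0 16384 32768 0 32768 rfl s10_r0 s10_r1

theorem s11_r00 : Sound P11 0 8192 0 32768 :=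
  sound_splitA P11 0 4096 8192 0 32768 rfl s11_r000 s11_r001

theorem s11_r0 : Sound P11 0 16384 0 32768 :=
  sound_splitA P11 0 8192 16384 0 32768 rfl s11_r00 s11_r01

theorem s11_r : Sound P11 0 32768 0 32768 :=
  sound_splitA P11 0 16384 32768 0 32768 rfl s11_r0 s11_r1

end Vale.Agent.P154.D2.K0
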